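import Vale.Agent.P246.Dis.H965.Pres
import Vale.Agent.P246.Dis.H302.ExA2
import Vale.Agent.P246.Dis.H366.Tower

/-! # The group `A` has no presentation with more generators than relators -/

namespace Vale.Agent.P246.Dis.H965

open Subgroup Vale.Agent.P246 Vale.Agent.P246.T

/-- every finite presentation of the group `A` has at least as many relators as generators -/
theorem core (P : FinPresentation GA) : P.gens ≤ P.rels := by
  obtain ⟨B, _, θ, hb, hθ⟩ := H366.exists_locSolv (xA 0) (xA 1) (xA 2) (by
    rw [eq_top_iff]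
    intro x _
    obtain ⟨f, rfl⟩ := PrA.surj x
    change FreeGroup.lift xA f ∈ _
    have : (FreeGroup.lift xA).range ≤ closure {xA 0, xA 1, xA 2} := by
      rw [FreeGroup.range_lift_eq_closure, closure_le]
      rintro _ ⟨i, rfl⟩
      fin_cases i <;> exact subset_closure (by simp)
    exact this ⟨f, rfl⟩) phiA phiA_a phiA_b phiA_t (by
    intro a b t h1 h2 h3
    refine exists_liftA a b t ?_ ?_ ?_
    · have h4 : a * b * a * b * a * b * a⁻¹ * a⁻¹ * b⁻¹ = 1 := h1
      have : a * b * a * b * a * b = (a * b * a * b * a * b * a⁻¹ * a⁻¹ * b⁻¹) * (b * a * a) := by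
        group
      rw [this, h4, one_mul]
    · rw [h2, pow_succ, pow_two]
    · rw [← pow_two, h3])
  refine gens_le_rels (xA 2) ?_ (b := xA 1) (n := 2) (by norm_num) (by rw [pow_two]; exact b_sq) θ
    hb (fun s hs h => ?_) P
  · intro x
    refine ⟨-(phiA x).toAdd, ?_⟩
    rw [← ker_phiA, MonoidHom.mem_ker, map_mul, map_zpow, phiA_t, ← ofAdd_zsmul]
    simp
  · have := hθ hs.toFinset fun x hx => by
      have := h x (hs.mem_toFinset.1 hx)
      rwa [← ker_phiA, MonoidHom.mem_ker] at this
    rwa [hs.coe_toFinset] at this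

end Vale.Agent.P246.Dis.H965
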