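import Mathlib.Algebra.AffineMonoid.UniqueSums
import Mathlib.Algebra.MonoidAlgebra.NoZeroDivisors
import Mathlib.GroupTheory.Finiteness
import Mathlib.LinearAlgebra.Matrix.Nondegenerate
import Mathlib.LinearAlgebra.Matrix.ToLinearEquiv
import Mathlib.LinearAlgebra.Basis.VectorSpace
import Mathlib.Tactic

/-! # Group rings of torsion-free abelian groups: rows which are independent after augmentation
are independent -/

namespace Vale.Agent.P246.Dis.H965

theorem uniqueProds (T : Type) [CommGroup T] [IsMulTorsionFree T] : UniqueProds T where
  uniqueMul_of_nonempty := by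
    classical
    intro A B hA hB
    let K : Subgroup T := Subgroup.closure (A ∪ B : Finset T)
    have hfg : Group.FG K := Group.closure_finset_fg _
    have hm : Monoid.FG K := Group.fg_iff_monoid_fg.1 hfg
    have hT : IsMulTorsionFree K := ⟨fun n hn a b h => Subtype.ext
      (IsMulTorsionFree.pow_left_injective hn (by simpa using congrArg Subtype.val h))⟩
    have hu : UniqueProds K := inferInstance
    have hAK : ∀ a ∈ A, a ∈ K := fun a ha => Subgroup.subset_closure (by simp [ha])
    have hBK : ∀ a ∈ B, a ∈ K := fun a ha => Subgroup.subset_closure (by simp [ha])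
    let A' : Finset K := A.attach.image fun a => ⟨a.1, hAK a.1 a.2⟩
    let B' : Finset K := B.attach.image fun a => ⟨a.1, hBK a.1 a.2⟩
    have hA' : A'.Nonempty := by simpa [A'] using hA
    have hB' : B'.Nonempty := by simpa [B'] using hB
    obtain ⟨a, ha, b, hb, hab⟩ := hu.uniqueMul_of_nonempty hA' hB'
    have e1 : A'.image (K.subtype : K → T) = A := by
      ext x; simp [A', Finset.mem_image]
      intro hx; exact hAK x hx
    have e2 : B'.image (K.subtype : K → T) = B := by
      ext x; simp [B', Finset.mem_image]
      intro hx; exact hBK x hx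
    have h2 := (UniqueMul.mulHom_image_iff (A := A') (B := B') (a0 := a) (b0 := b)
      (K.subtype : K →ₙ* T) K.subtype_injective).2 hab
    refine ⟨a, ?_, b, ?_, ?_⟩
    · rw [← e1]; exact Finset.mem_image_of_mem _ ha
    · rw [← e2]; exact Finset.mem_image_of_mem _ hb
    · rw [← e1, ← e2]; exact h2

theorem noZeroDiv (k T : Type) [Field k] [CommGroup T] [IsMulTorsionFree T] :
    NoZeroDivisors (MonoidAlgebra k T) := by
  have := uniqueProds T
  infer_instance

/-- the augmentation -/
noncomputable def aug (k T : Type) [Field k] [CommGroup T] : MonoidAlgebra k T →+* k :=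
  (MonoidAlgebra.lift k k T (1 : T →* k)).toRingHom

theorem aug_single {k T : Type} [Field k] [CommGroup T] (t : T) (a : k) :
    aug k T (MonoidAlgebra.single t a) = a := by
  simp [aug, MonoidAlgebra.lift_single]

theorem aug_algebraMap {k T : Type} [Field k] [CommGroup T] (a : k) :
    aug k T (algebraMap k (MonoidAlgebra k T) a) = a :=
  (MonoidAlgebra.lift k k T (1 : T →* k)).commutes a

/-- Rows over the group ring of a torsion-free abelian group which are linearly independent after
augmentation are linearly independent. -/
theorem indep {k T : Type} [Field k] [CommGroup T] [IsMulTorsionFree T] {J X : Type}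
    (v : J → X →₀ MonoidAlgebra k T)
    (h : LinearIndependent k fun j => (v j).mapRange (aug k T) (map_zero _))
    (s : Finset J) (a : J → MonoidAlgebra k T) (ha : ∀ x, ∑ j ∈ s, a j * v j x = 0) :
      ∀ j ∈ s, a j = 0 := by
  classical
  have := noZeroDiv k T
  let f : s → X →₀ k := fun j => (v j).mapRange (aug k T) (map_zero _)
  have hf : LinearIndependent k f := h.comp _ Subtype.val_injective
  obtain ⟨g, hg⟩ := LinearMap.exists_leftInverse_of_injective (Finsupp.linearCombination k f)
    (LinearMap.ker_eq_bot.2 hf)
  have hgf : ∀ j, g (f j) = Finsupp.single j 1 := by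
    intro j
    have := LinearMap.congr_fun hg (Finsupp.single j 1)
    simpa using this
  let S : Finset X := s.biUnion fun j => (v j).support
  let M : Matrix s s (MonoidAlgebra k T) := fun j i =>
    ∑ x ∈ S, v j x * algebraMap k _ (g (Finsupp.single x 1) i)
  have hM : M.map (aug k T) = 1 := by
    ext j i
    rw [Matrix.map_apply]
    have e : f j = ∑ x ∈ S, aug k T (v j x) • Finsupp.single x (1 : k) := by
      ext y
      rw [Finsupp.finsetSum_apply]
      simp only [Finsupp.smul_apply, smul_eq_mul, Finsupp.single_apply, mul_ite, mul_one, mul_zero,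
        Finset.sum_ite_eq', f, Finsupp.mapRange_apply]
      split_ifs with hy
      · rfl
      · have : v j y = 0 := by
          by_contra hne
          exact hy (Finset.mem_biUnion.2 ⟨j, j.2, Finsupp.mem_support_iff.2 hne⟩)
        rw [this, map_zero]
    have e2 := congrArg (fun w => w i) (hgf j)
    simp only [e, map_sum, map_smul, Finsupp.finsetSum_apply, Finsupp.smul_apply,
      smul_eq_mul] at e2
    rw [Matrix.one_apply, map_sum]
    calc _ = ∑ x ∈ S, aug k T (v j x) * g (Finsupp.single x 1) i := by
          refine Finset.sum_congr rfl fun x _ => ?_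
          rw [map_mul, aug_algebraMap]
      _ = _ := by
          rw [e2, Finsupp.single_apply]
  have hdet : M.det ≠ 0 := by
    intro h0
    have := congrArg (aug k T) h0
    rw [map_zero, RingHom.map_det, RingHom.mapMatrix_apply, hM, Matrix.det_one] at this
    exact one_ne_zero this
  have hv : Matrix.vecMul (fun j : s => a j) M = 0 := by
    ext1 i
    rw [Pi.zero_apply, Matrix.vecMul, dotProduct]
    simp only [M, Finset.mul_sum]
    rw [Finset.sum_comm]
    refine Finset.sum_eq_zero fun x _ => ?_
    have := ha x
    rw [← Finset.sum_coe_sort] at this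
    simp only [← mul_assoc]
    rw [← Finset.sum_mul, this, zero_mul]
  have := Matrix.eq_zero_of_vecMul_eq_zero hdet hv
  intro j hj
  exact congrFun this ⟨j, hj⟩

end Vale.Agent.P246.Dis.H965
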