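import Vale.Agent.P246.Dis.H965.Ind

/-! # Fox derivatives modulo `p` -/

namespace Vale.Agent.P246.Dis.H965

open Subgroup

section Fox

variable {F T : Type} [Group F] [IsFreeGroup F] [CommGroup T] (k : Type) [Field k] (q : F →* T)

/-- the free module on the generators -/
abbrev FV (k F T : Type) [Group F] [IsFreeGroup F] [CommGroup T] [Field k] : Type :=
  IsFreeGroup.Generators F →₀ MonoidAlgebra k T

/-- the action of `T` -/
noncomputable def act (k F T : Type) [Group F] [IsFreeGroup F] [CommGroup T] [Field k] :
    T →* MulAut (Multiplicative (FV k F T)) where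
  toFun t := AddEquiv.toMultiplicative
    { toFun := fun v => MonoidAlgebra.single t (1 : k) • v
      invFun := fun v => MonoidAlgebra.single t⁻¹ (1 : k) • v
      left_inv := fun v => by
        change MonoidAlgebra.single t⁻¹ (1 : k) • MonoidAlgebra.single t (1 : k) • v = v
        rw [smul_smul, MonoidAlgebra.single_mul_single, inv_mul_cancel, mul_one,
          ← MonoidAlgebra.one_def, one_smul]
      right_inv := fun v => by
        change MonoidAlgebra.single t (1 : k) • MonoidAlgebra.single t⁻¹ (1 : k) • v = v
        rw [smul_smul, MonoidAlgebra.single_mul_single, mul_inv_cancel, mul_one,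
          ← MonoidAlgebra.one_def, one_smul]
      map_add' := fun v w => smul_add _ v w }
  map_one' := by
    ext1 v
    change Multiplicative.ofAdd (MonoidAlgebra.single (1 : T) (1 : k) • v.toAdd) = v
    rw [← MonoidAlgebra.one_def, one_smul]; rfl
  map_mul' s t := by
    ext1 v
    change Multiplicative.ofAdd (MonoidAlgebra.single (s * t) (1 : k) • v.toAdd) =
      Multiplicative.ofAdd (MonoidAlgebra.single s (1 : k) •
        MonoidAlgebra.single t (1 : k) • v.toAdd)
    rw [smul_smul, MonoidAlgebra.single_mul_single, mul_one]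

/-- the homomorphism to the semidirect product -/
noncomputable def foxHom : F →* Multiplicative (FV k F T) ⋊[act k F T] T :=
  IsFreeGroup.lift fun i => ⟨Multiplicative.ofAdd (Finsupp.single i 1), q (IsFreeGroup.of i)⟩

theorem foxHom_right (f : F) : (foxHom k q f).right = q f := by
  have : (SemidirectProduct.rightHom.comp (foxHom k q)) = q := by
    apply IsFreeGroup.ext_hom
    intro i
    rw [MonoidHom.comp_apply, foxHom, IsFreeGroup.lift_of]
    rfl
  exact DFunLike.congr_fun this f

/-- the Fox derivatives -/
noncomputable def D (f : F) : FV k F T := (foxHom k q f).left.toAdd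

theorem D_mul (f g : F) : D k q (f * g) = D k q f + MonoidAlgebra.single (q f) (1 : k) • D k q g := by
  rw [D, map_mul, SemidirectProduct.mul_left, foxHom_right]
  rfl

theorem D_one : D k q 1 = 0 := by
  rw [D, map_one]; rfl

theorem D_gen (i : IsFreeGroup.Generators F) : D k q (IsFreeGroup.of i) = Finsupp.single i 1 := by
  rw [D, foxHom, IsFreeGroup.lift_of]
  rfl

theorem D_conj {f g : F} (hg : q g = 1) :
    D k q (f * g * f⁻¹) = MonoidAlgebra.single (q f) (1 : k) • D k q g := by
  have h1 : D k q f + MonoidAlgebra.single (q f) (1 : k) • D k q f⁻¹ = 0 := by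
    rw [← D_mul, mul_inv_cancel, D_one]
  rw [D_mul, D_mul, map_mul, hg, mul_one, add_right_comm, h1, zero_add]

/-- the Fox derivatives on the kernel of `q` -/
noncomputable def DK : Additive (Abelianization q.ker) →+ FV k F T :=
  MonoidHom.toAdditiveLeft (Abelianization.lift
    { toFun := fun f : q.ker => Multiplicative.ofAdd (D k q f)
      map_one' := by
        change Multiplicative.ofAdd (D k q 1) = 1
        rw [D_one]; rfl
      map_mul' := fun f g => by
        change Multiplicative.ofAdd (D k q (f * g)) = _
        rw [D_mul, f.2, ← MonoidAlgebra.one_def, one_smul]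
        rfl })

theorem DK_cl (f : q.ker) : DK k q (cl f) = D k q f := by
  rfl

/-- the exponents modulo the characteristic of `k` -/
noncomputable def exk : Additive (Abelianization F) →+ (IsFreeGroup.Generators F →₀ k) :=
  (Finsupp.mapRange.addMonoidHom (Int.castAddHom k)).comp (ex F).toAddMonoidHom

theorem exk_gen (i : IsFreeGroup.Generators F) :
    exk (F := F) k (cl (IsFreeGroup.of i)) = Finsupp.single i 1 := by
  rw [exk, AddMonoidHom.comp_apply]
  change Finsupp.mapRange.addMonoidHom (Int.castAddHom k) (ex F (cl (gen F i))) = _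
  rw [ex_cl_gen]
  simp

theorem aug_smul (t : T) (v : FV k F T) :
    (MonoidAlgebra.single t (1 : k) • v).mapRange (aug k T) (map_zero _) =
      v.mapRange (aug k T) (map_zero _) := by
  ext i
  rw [Finsupp.mapRange_apply, Finsupp.mapRange_apply, Finsupp.smul_apply, smul_eq_mul, map_mul,
    aug_single, one_mul]

/-- the augmented Fox derivatives as a homomorphism -/
noncomputable def augHom : F →* Multiplicative (IsFreeGroup.Generators F →₀ k) where
  toFun f := Multiplicative.ofAdd ((D k q f).mapRange (aug k T) (map_zero _))
  map_one' := by rw [D_one, Finsupp.mapRange_zero]; rfl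
  map_mul' f g := by
    rw [D_mul, Finsupp.mapRange_add (map_add _), aug_smul]
    rfl

theorem aug_D (f : F) : (D k q f).mapRange (aug k T) (map_zero _) = exk k (cl f) := by
  have : augHom k q = (MonoidHom.comp (AddMonoidHom.toMultiplicative (exk (F := F) k))
      (MulEquiv.toMonoidHom (MulEquiv.refl _) : Abelianization F →* _)).comp Abelianization.of := by
    apply IsFreeGroup.ext_hom
    intro i
    change Multiplicative.ofAdd ((D k q (IsFreeGroup.of i)).mapRange (aug k T) (map_zero _)) =
      Multiplicative.ofAdd (exk (F := F) k (cl (IsFreeGroup.of i)))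
    rw [D_gen, exk_gen, Finsupp.mapRange_single, map_one]
  exact congrArg Multiplicative.toAdd (DFunLike.congr_fun this f)

end Fox

section

variable {F : Type} [Group F] [IsFreeGroup F] {p : ℕ} [Fact p.Prime]

theorem exk_ker {w : Additive (Abelianization F)} (h : exk (ZMod p) w = 0) :
    ∃ v, w = (p : ℤ) • v := by
  refine ⟨(ex F).symm ((ex F w).mapRange (fun a => a / p) (by simp)), ?_⟩
  apply (ex F).injective
  rw [map_zsmul, AddEquiv.apply_symm_apply]
  ext i
  have h1 : ((ex F w i : ℤ) : ZMod p) = 0 := DFunLike.congr_fun h i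
  rw [ZMod.intCast_zmod_eq_zero_iff_dvd] at h1
  rw [Finsupp.smul_apply, Finsupp.mapRange_apply, smul_eq_mul, Int.mul_ediv_cancel' h1]

theorem Ind.lin {J : Type} {r : J → F} (h : Ind p r) :
    LinearIndependent (ZMod p) fun j => exk (ZMod p) (cl (r j)) := by
  rw [linearIndependent_iff]
  intro l hl
  let c : J →₀ ℤ := l.mapRange (fun a => (a.val : ℤ)) (by simp)
  have hc : ∀ j, ((c j : ℤ) : ZMod p) = l j := fun j => by simp [c]
  obtain ⟨v, hv⟩ := exk_ker (p := p) (w := c.sum fun j m => m • cl (r j)) (by
    rw [map_finsuppSum, ← hl, Finsupp.linearCombination_apply, Finsupp.sum_mapRange_index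
      (by simp)]
    refine Finsupp.sum_congr fun j _ => ?_
    rw [map_zsmul, ← Int.cast_smul_eq_zsmul (ZMod p)]
    simp)
  ext j
  have := h c v hv j
  rw [← ZMod.intCast_zmod_eq_zero_iff_dvd, hc] at this
  exact this

end

end Vale.Agent.P246.Dis.H965
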