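import Vale.Agent.P246.Dis.H965.Dom
import Mathlib.GroupTheory.FreeGroup.NielsenSchreier
import Mathlib.Algebra.FreeAbelianGroup.Finsupp
import Mathlib.GroupTheory.SemidirectProduct
import Mathlib.GroupTheory.Solvable
import Mathlib.Data.ZMod.Basic

/-! # Families in free groups which are independent modulo every prime -/

namespace Vale.Agent.P246.Dis.H965

open Subgroup

/-- the class of `f` in the abelianisation, written additively -/
def cl {F : Type} [Group F] (f : F) : Additive (Abelianization F) :=
  Additive.ofMul (Abelianization.of f)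

theorem cl_mul {F : Type} [Group F] (f g : F) : cl (f * g) = cl f + cl g := by
  simp [cl]

theorem cl_one {F : Type} [Group F] : cl (1 : F) = 0 := by
  simp [cl]

theorem cl_inv {F : Type} [Group F] (f : F) : cl f⁻¹ = -cl f := by
  simp [cl]

theorem cl_pow {F : Type} [Group F] (f : F) (n : ℕ) : cl (f ^ n) = n • cl f := by
  simp [cl]

/-- the classes of the `r j` in the abelianisation of `F` are independent modulo `p` -/
def Ind {F : Type} [Group F] {J : Type} (p : ℕ) (r : J → F) : Prop :=
  ∀ (c : J →₀ ℤ) (v : Additive (Abelianization F)),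
    (c.sum fun j m => m • cl (r j)) = (p : ℤ) • v → ∀ j, (p : ℤ) ∣ c j

/-- independence is inherited by subgroups -/
theorem Ind.sub {F : Type} [Group F] {J : Type} {p : ℕ} {r : J → F} (h : Ind p r)
    (H : Subgroup F) {K : Type} (f : K → J) (hf : Function.Injective f) (r' : K → H)
    (hr : ∀ k, (r' k : F) = r (f k)) : Ind p r' := by
  intro c v hv k
  let g : Additive (Abelianization H) →+ Additive (Abelianization F) :=
    MonoidHom.toAdditive (Abelianization.map H.subtype)
  have hg : ∀ x : H, g (cl x) = cl (x : F) := fun x => rfl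
  have := h (c.mapDomain f) (g v) (by
    rw [Finsupp.sum_mapDomain_index (by simp) (by intros; rw [add_smul]), ← map_zsmul, ← hv,
      map_finsuppSum]
    refine Finsupp.sum_congr fun k _ => ?_
    rw [map_zsmul, hg, hr]) (f k)
  rwa [Finsupp.mapDomain_apply hf] at this

section Exp

variable {F : Type} [Group F] [IsFreeGroup F]

/-- the basis of a free group -/
noncomputable abbrev gen (F : Type) [Group F] [IsFreeGroup F] : IsFreeGroup.Generators F → F :=
  IsFreeGroup.of

/-- the exponents -/
noncomputable def ex (F : Type) [Group F] [IsFreeGroup F] :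
    Additive (Abelianization F) ≃+ (IsFreeGroup.Generators F →₀ ℤ) :=
  (MulEquiv.toAdditive (MulEquiv.abelianizationCongr (IsFreeGroup.toFreeGroup F))).trans
    (FreeAbelianGroup.equivFinsupp _)

theorem ex_cl_gen (i : IsFreeGroup.Generators F) :
    ex F (cl (gen F i)) = Finsupp.single i 1 := by
  have h : IsFreeGroup.toFreeGroup F (gen F i) = FreeGroup.of i := by
    change IsFreeGroup.toFreeGroup F ((IsFreeGroup.toFreeGroup F).symm (FreeGroup.of i)) = _
    exact MulEquiv.apply_symm_apply _ _
  have h2 : ex F (cl (gen F i)) = FreeAbelianGroup.toFinsupp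
      (Additive.ofMul (Abelianization.of (IsFreeGroup.toFreeGroup F (gen F i)))) := rfl
  rw [h2, h]
  exact FreeAbelianGroup.toFinsupp_of i

theorem tf {F : Type} [Group F] [IsFreeGroup F] {n : ℤ} (hn : n ≠ 0)
    {v : Additive (Abelianization F)} (h : n • v = 0) : v = 0 := by
  have : n • ex F v = 0 := by rw [← map_zsmul, h, map_zero]
  have h2 := (smul_eq_zero.1 this).resolve_left hn
  exact (ex F).injective (by rw [h2, map_zero])

end Exp

end Vale.Agent.P246.Dis.H965
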