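import Vale.Agent.P246.Dis.H965.Tower

/-! # Torsion elements die in all locally solvable quotients of the derived group -/

namespace Vale.Agent.P246.Dis.H965

open Subgroup

/-- a torsion element dies in every solvable quotient -/
theorem solvable_aux {S : Type} [Group S] (l : ℕ) (hl : derivedSeries S l = ⊥) :
    ∀ (k m : ℕ), m + k = l → ∀ (F J : Type) [Group F] [IsFreeGroup F] (r : J → F),
      (∀ p : ℕ, p.Prime → Ind p r) → ∀ (β : F) (n : ℕ), 0 < n →
      β ^ n ∈ normalClosure (Set.range r) → ∀ φ : F →* S, (∀ j, φ (r j) = 1) →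
      (∀ f, φ f ∈ derivedSeries S m) → φ β = 1 := by
  intro k
  induction k with
  | zero =>
    intro m hm F J _ _ r _ β n _ _ φ _ hφ
    obtain rfl : m = l := by omega
    have := hφ β
    rw [hl, mem_bot] at this
    exact this
  | succ k ih =>
    intro m hm F J _ _ r hr β n hn hβ φ hφr hφ
    let q : F →* Abelianization (F ⧸ normalClosure (Set.range r)) :=
      Abelianization.of.comp (QuotientGroup.mk' _)
    have hq : Function.Surjective q :=
      (QuotientGroup.mk_surjective (s := commutator _)).comp (QuotientGroup.mk'_surjective _)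
    have hk : q.ker = normalClosure (Set.range r) ⊔ commutator F := by
      change (Abelianization.of.comp (QuotientGroup.mk' (normalClosure (Set.range r)))).ker = _
      rw [← MonoidHom.comap_ker, Abelianization.ker_of, commutator_def,
        ← Subgroup.map_top_of_surjective (QuotientGroup.mk' (normalClosure (Set.range r)))
          (QuotientGroup.mk'_surjective _), ← Subgroup.map_commutator, Subgroup.comap_map_eq,
        QuotientGroup.ker_mk', sup_comm, commutator_def]
    have hT := quot_tf hr q hq hk
    have hqr : ∀ j, q (r j) = 1 := fun j => by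
      rw [← MonoidHom.mem_ker, hk]
      exact mem_sup_left (subset_normalClosure ⟨j, rfl⟩)
    obtain ⟨s, hs⟩ := hq.hasRightInverse
    have hβq : β ∈ q.ker := by
      rw [hk]
      exact torsion hr hn (mem_sup_left hβ)
    obtain ⟨y, hy, hyβ⟩ := conj_closure q r hqr s hs hβ
    have e : y = (⟨β, hβq⟩ : q.ker) ^ n := Subtype.ext hyβ
    have := ih (m + 1) (by omega) q.ker _ (conj q r hqr s) (fun p hp => by
        have : Fact p.Prime := ⟨hp⟩
        exact Ind.step q r hqr s hs (hr p hp)) ⟨β, hβq⟩ n hn (by
        rw [← e]; exact hy) (φ.comp q.ker.subtype) (fun x => by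
        change φ (s x.2 * r x.1 * (s x.2)⁻¹) = 1
        rw [map_mul, map_mul, hφr, mul_one, map_inv, mul_inv_cancel]) (fun f => by
        have hf : (f : F) ∈ normalClosure (Set.range r) ⊔ commutator F := by
          rw [← hk]; exact f.2
        have h1 : normalClosure (Set.range r) ⊔ commutator F ≤
            (derivedSeries S (m + 1)).comap φ := by
          refine sup_le ?_ ?_
          · have : (Subgroup.comap φ (derivedSeries S (m + 1))).Normal := inferInstance
            refine normalClosure_le_normal ?_
            rintro _ ⟨j, rfl⟩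
            change φ (r j) ∈ derivedSeries S (m + 1)
            rw [hφr]; exact one_mem _
          · rw [commutator_def, ← Subgroup.map_le_iff_le_comap, Subgroup.map_commutator,
              derivedSeries_succ]
            refine Subgroup.commutator_mono ?_ ?_ <;>
            · rw [Subgroup.map_le_iff_le_comap]
              intro f _
              exact hφ f
        exact h1 hf)
    exact this

/-- a torsion element dies in every solvable quotient -/
theorem solvable {S : Type} [Group S] [Group.IsSolvable S] {F J : Type} [Group F] [IsFreeGroup F]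
    {r : J → F} (hr : ∀ p : ℕ, p.Prime → Ind p r) {β : F} {n : ℕ} (hn : 0 < n)
    (hβ : β ^ n ∈ normalClosure (Set.range r)) (φ : F →* S) (hφ : ∀ j, φ (r j) = 1) : φ β = 1 := by
  obtain ⟨l, hl⟩ := Group.IsSolvable.solvable (G := S)
  exact solvable_aux l hl l 0 (by omega) F J r hr β n hn hβ φ hφ fun f => by
    rw [derivedSeries_zero]; exact mem_top _

/-- finitely many elements witness the membership in a normal closure -/
theorem finite_witness {F J : Type} [Group F] (r : J → F) {x : F}
    (hx : x ∈ normalClosure (Set.range r)) : ∃ s : Set F, s.Finite ∧ ∀ H : Subgroup F, s ⊆ H →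
      x ∈ (normalClosure (Set.range fun j : {j // r j ∈ H} => (⟨r j, j.2⟩ : H))).map
        H.subtype := by
  rw [normalClosure] at hx
  induction hx using closure_induction with
  | mem x hx =>
    obtain ⟨_, ⟨j, rfl⟩, hx⟩ := Group.mem_conjugatesOfSet_iff.1 hx
    obtain ⟨f, rfl⟩ := isConj_iff.1 hx
    refine ⟨{f, r j}, by simp, fun H hH => ?_⟩
    have h1 : f ∈ H := hH (by simp)
    have h2 : r j ∈ H := hH (by simp)
    refine ⟨(⟨f, h1⟩ : H) * ⟨r j, h2⟩ * (⟨f, h1⟩ : H)⁻¹, ?_, rfl⟩
    exact normalClosure_normal.conj_mem _ (subset_normalClosure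
      (Set.mem_range_self (⟨j, h2⟩ : {j // r j ∈ H}))) _
  | one => exact ⟨∅, Set.finite_empty, fun H _ => one_mem _⟩
  | mul x y _ _ hx hy =>
    obtain ⟨s, hs, h1⟩ := hx
    obtain ⟨t, ht, h2⟩ := hy
    exact ⟨s ∪ t, hs.union ht, fun H hH => mul_mem (h1 H (Set.subset_union_left.trans hH))
      (h2 H (Set.subset_union_right.trans hH))⟩
  | inv x _ hx =>
    obtain ⟨s, hs, h1⟩ := hx
    exact ⟨s, hs, fun H hH => inv_mem (h1 H hH)⟩

/-- a torsion element dies in every locally solvable quotient -/
theorem loc_solvable {L : Type} [Group L] {F J : Type} [Group F] [IsFreeGroup F] {r : J → F}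
    (hr : ∀ p : ℕ, p.Prime → Ind p r) {β : F} {n : ℕ} (hn : 0 < n)
    (hβ : β ^ n ∈ normalClosure (Set.range r)) (φ : F →* L) (hφ : ∀ j, φ (r j) = 1)
    (hL : ∀ s : Set F, s.Finite → Group.IsSolvable (closure (φ '' s))) : φ β = 1 := by
  obtain ⟨s, hs, h1⟩ := finite_witness r hβ
  let H : Subgroup F := closure (s ∪ {β})
  have hsH : s ⊆ H := Set.subset_union_left.trans subset_closure
  have hβH : β ∈ H := subset_closure (by simp)
  obtain ⟨y, hy, hyβ⟩ := h1 H hsH
  have hsol := hL (s ∪ {β}) (hs.union (Set.finite_singleton β))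
  have hmap : ∀ h : H, φ h ∈ closure (φ '' (s ∪ {β})) := fun h => by
    rw [← MonoidHom.map_closure]
    exact ⟨h, h.2, rfl⟩
  let φ' : H →* closure (φ '' (s ∪ {β})) := (φ.comp H.subtype).codRestrict _ hmap
  have e : y = (⟨β, hβH⟩ : H) ^ n := Subtype.ext hyβ
  have := solvable (r := fun j : {j // r j ∈ H} => (⟨r j, j.2⟩ : H)) (fun p hp =>
    (hr p hp).sub H Subtype.val Subtype.val_injective _ fun _ => rfl) (β := ⟨β, hβH⟩) hn (by
      rw [← e]; exact hy) φ' (fun j => Subtype.ext (hφ j))
  exact congrArg Subtype.val this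

/-- MAIN THEOREM. Let `G` be presented by a free group `F` and relators `r j` which are independent
modulo every prime, and let `b` be a torsion element of `G`. If `θ` is a homomorphism such that the
images of all finitely generated subgroups of `[G, G]` are solvable, then `θ b = 1`. -/
theorem main {G F J : Type} [Group G] [Group F] [IsFreeGroup F] (π : F →* G)
    (hπ : Function.Surjective π) (r : J → F) (hk : π.ker = normalClosure (Set.range r))
    (hr : ∀ p : ℕ, p.Prime → Ind p r) {b : G} {n : ℕ} (hn : 0 < n) (hb : b ^ n = 1)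
    {L : Type} [Group L] (θ : G →* L) (hθ : ∀ s : Set G, s.Finite → (∀ x ∈ s, x ∈ commutator G) →
      Group.IsSolvable (closure (θ '' s))) : θ b = 1 := by
  let q : F →* Abelianization G := Abelianization.of.comp π
  have hq : Function.Surjective q := (QuotientGroup.mk_surjective (s := commutator _)).comp hπ
  have hqk : q.ker = normalClosure (Set.range r) ⊔ commutator F := by
    change (Abelianization.of.comp π).ker = _
    rw [← MonoidHom.comap_ker, Abelianization.ker_of, commutator_def,
      ← Subgroup.map_top_of_surjective π hπ, ← Subgroup.map_commutator, Subgroup.comap_map_eq,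
      hk, sup_comm, commutator_def]
  have hT := quot_tf hr q hq hqk
  have hqr : ∀ j, q (r j) = 1 := fun j => by
    rw [← MonoidHom.mem_ker, hqk]
    exact mem_sup_left (subset_normalClosure ⟨j, rfl⟩)
  have hπr : ∀ j, π (r j) = 1 := fun j => by
    rw [← MonoidHom.mem_ker, hk]
    exact subset_normalClosure ⟨j, rfl⟩
  obtain ⟨s, hs⟩ := hq.hasRightInverse
  obtain ⟨β, rfl⟩ := hπ b
  have hβ : β ^ n ∈ normalClosure (Set.range r) := by
    rw [← hk, MonoidHom.mem_ker, map_pow, hb]
  have hβq : β ∈ q.ker := by
    rw [hqk]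
    exact torsion hr hn (mem_sup_left hβ)
  obtain ⟨y, hy, hyβ⟩ := conj_closure q r hqr s hs hβ
  have e : y = (⟨β, hβq⟩ : q.ker) ^ n := Subtype.ext hyβ
  have := loc_solvable (r := conj q r hqr s) (fun p hp => by
    have : Fact p.Prime := ⟨hp⟩
    exact Ind.step q r hqr s hs (hr p hp)) (β := ⟨β, hβq⟩) hn (by
      rw [← e]; exact hy) ((θ.comp π).comp q.ker.subtype) (fun x => by
      change θ (π (s x.2 * r x.1 * (s x.2)⁻¹)) = 1
      have h2 : π (s x.2 * r x.1 * (s x.2)⁻¹) = 1 := by
        rw [map_mul, map_mul, hπr, mul_one, map_inv, mul_inv_cancel]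
      rw [h2, map_one]) (fun t ht => by
      have := hθ ((π.comp q.ker.subtype) '' t) (ht.image _) (by
        rintro _ ⟨x, _, rfl⟩
        rw [← Abelianization.ker_of, MonoidHom.mem_ker]
        exact x.2)
      rwa [Set.image_image] at this)
  exact this

end Vale.Agent.P246.Dis.H965
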