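import Vale.Agent.P246.Dis.H965.Main
import Vale.Agent.P246.Defs0
import Mathlib.LinearAlgebra.Dimension.OrzechProperty
import Mathlib.LinearAlgebra.FiniteDimensional.Basic

/-! # Presentations with one relator less than generators -/

namespace Vale.Agent.P246.Dis.H965

open Subgroup

section

variable {n : ℕ} (p : ℕ)

/-- the exponents modulo `p` -/
def em : FreeGroup (Fin n) →* Multiplicative (Fin n → ZMod p) :=
  FreeGroup.lift fun i => Multiplicative.ofAdd (Pi.single i 1)

theorem em_of (i : Fin n) : (em p (FreeGroup.of i)).toAdd = Pi.single i 1 := by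
  rw [em, FreeGroup.lift_apply_of]; rfl

/-- the exponents modulo `p` on the abelianisation -/
def ema : Additive (Abelianization (FreeGroup (Fin n))) →+ (Fin n → ZMod p) :=
  MonoidHom.toAdditiveLeft (Abelianization.lift (em p))

theorem ema_cl (f : FreeGroup (Fin n)) : ema p (cl f) = (em p f).toAdd := rfl

end

/-- If the abelianisation of `G` is cyclic and `P` is a presentation of `G` with more generators
than relators then the relators are independent modulo every prime. -/
theorem ind_of_pres {G : Type} [Group G] (P : FinPresentation G) (h : P.rels + 1 ≤ P.gens) (τ : G)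
    (hτ : ∀ x : G, ∃ m : ℤ, x * τ ^ m ∈ commutator G) (p : ℕ) (hp : p.Prime) : Ind p P.r := by
  have : Fact p.Prime := ⟨hp⟩
  let e : Fin P.rels → (Fin P.gens → ZMod p) := fun j => (em p (P.r j)).toAdd
  let W : Submodule (ZMod p) (Fin P.gens → ZMod p) := Submodule.span (ZMod p) (Set.range e)
  obtain ⟨fτ, hfτ⟩ := P.surj τ
  have h1 : ∀ f ∈ (FreeGroup.lift P.x).ker ⊔ commutator (FreeGroup (Fin P.gens)),
      (em p f).toAdd ∈ W := by
    intro f hf
    rw [P.ker_eq, mem_iff] at hf
    have h2 : Submodule.span ℤ (Set.range fun j => cl (P.r j)) ≤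
        (W.restrictScalars ℤ).comap (ema (n := P.gens) p).toIntLinearMap := by
      rw [Submodule.span_le]
      rintro _ ⟨j, rfl⟩
      exact Submodule.subset_span ⟨j, rfl⟩
    exact h2 hf
  have h3 : ∀ f, ∃ m : ℤ, f * fτ ^ m ∈
      (FreeGroup.lift P.x).ker ⊔ commutator (FreeGroup (Fin P.gens)) := by
    intro f
    obtain ⟨m, hm⟩ := hτ (FreeGroup.lift P.x f)
    refine ⟨m, ?_⟩
    have h4 : (FreeGroup.lift P.x).ker ⊔ commutator (FreeGroup (Fin P.gens)) =
        (commutator G).comap (FreeGroup.lift P.x) := by
      rw [commutator_def G, ← Subgroup.map_top_of_surjective _ P.surj, ← Subgroup.map_commutator,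
        Subgroup.comap_map_eq, sup_comm, commutator_def]
    rw [h4, Subgroup.mem_comap, map_mul, map_zpow, hfτ]
    exact hm
  have htop : W ⊔ Submodule.span (ZMod p) {(em p fτ).toAdd} = ⊤ := by
    rw [eq_top_iff]
    intro v _
    rw [← Finset.univ_sum_single v]
    refine Submodule.sum_mem _ fun i _ => ?_
    have h5 : Pi.single i (1 : ZMod p) ∈ W ⊔ Submodule.span (ZMod p) {(em p fτ).toAdd} := by
      obtain ⟨m, hm⟩ := h3 (FreeGroup.of i)
      have h6 := h1 _ hm
      rw [map_mul, toAdd_mul, em_of, map_zpow, toAdd_zpow] at h6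
      have h7 : (Pi.single i (1 : ZMod p) : Fin P.gens → ZMod p) =
          (Pi.single i 1 + m • (em p fτ).toAdd) - (m : ZMod p) • (em p fτ).toAdd := by
        rw [Int.cast_smul_eq_zsmul, add_sub_cancel_right]
      rw [h7]
      exact Submodule.sub_mem _ (Submodule.mem_sup_left h6)
        (Submodule.mem_sup_right (Submodule.smul_mem _ _ (Submodule.mem_span_singleton_self _)))
    have h8 : Pi.single i (v i) = v i • (Pi.single i (1 : ZMod p) : Fin P.gens → ZMod p) := by
      rw [← Pi.single_smul, smul_eq_mul, mul_one]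
    rw [h8]
    exact Submodule.smul_mem _ _ h5
  have hdim : P.gens ≤ Module.finrank (ZMod p) W + 1 := by
    have h9 := Submodule.finrank_add_le_finrank_add_finrank W
      (Submodule.span (ZMod p) {(em p fτ).toAdd})
    rw [htop, finrank_top, Module.finrank_fin_fun] at h9
    have h10 := finrank_span_le_card (R := ZMod p) ({(em p fτ).toAdd} : Set (Fin P.gens → ZMod p))
    rw [Set.toFinset_singleton, Finset.card_singleton] at h10
    omega
  have hli : LinearIndependent (ZMod p) e := by
    rw [linearIndependent_iff_card_eq_finrank_span, Fintype.card_fin, Set.finrank]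
    have := finrank_range_le_card (R := ZMod p) (b := e)
    rw [Fintype.card_fin, Set.finrank] at this
    have h11 : Module.finrank (ZMod p) W = Module.finrank (ZMod p)
      (Submodule.span (ZMod p) (Set.range e)) := rfl
    omega
  intro c v hv j
  have h12 := congrArg (ema (n := P.gens) p) hv
  rw [map_finsuppSum, map_zsmul, ← Int.cast_smul_eq_zsmul (ZMod p), Int.cast_natCast,
    ZMod.natCast_self, zero_smul, Finsupp.sum_fintype _ _ (by simp)] at h12
  rw [Fintype.linearIndependent_iff] at hli
  have h13 := hli (fun j => ((c j : ℤ) : ZMod p)) (by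
    rw [← h12]
    refine Finset.sum_congr rfl fun j _ => ?_
    rw [map_zsmul, Int.cast_smul_eq_zsmul]
    rfl) j
  exact (ZMod.intCast_zmod_eq_zero_iff_dvd _ _).1 h13

/-- Let `G` be a group with cyclic abelianisation which has a torsion element `b` and a
homomorphism `θ` with `θ b ≠ 1` such that the images of the finitely generated subgroups of
`[G, G]` are solvable. Then every finite presentation of `G` has at least as many relators as
generators. -/
theorem gens_le_rels {G : Type} [Group G] (τ : G) (hτ : ∀ x : G, ∃ m : ℤ, x * τ ^ m ∈ commutator G)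
    {b : G} {n : ℕ} (hn : 0 < n) (hb : b ^ n = 1) {L : Type} [Group L] (θ : G →* L)
    (hθb : θ b ≠ 1) (hθ : ∀ s : Set G, s.Finite → (∀ x ∈ s, x ∈ commutator G) →
      Group.IsSolvable (closure (θ '' s))) (P : FinPresentation G) : P.gens ≤ P.rels := by
  by_contra hlt
  exact hθb (main (FreeGroup.lift P.x) P.surj P.r P.ker_eq
    (ind_of_pres P (by omega) τ hτ) hn hb θ hθ)

end Vale.Agent.P246.Dis.H965
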