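import Vale.Agent.P246.Dis.H965.Fox

/-! # The step to the kernel of a map to a torsion-free abelian group -/

namespace Vale.Agent.P246.Dis.H965

open Subgroup

/-- the conjugates of the `r j` by a section of `q`, in the kernel of `q` -/
def conj {F T J : Type} [Group F] [CommGroup T] (q : F →* T) (r : J → F) (hr : ∀ j, q (r j) = 1)
    (s : T → F) (x : J × T) : q.ker :=
  ⟨s x.2 * r x.1 * (s x.2)⁻¹, by rw [MonoidHom.mem_ker, map_mul, map_mul, hr, mul_one, map_inv,
    mul_inv_cancel]⟩

theorem Ind.step {F T J : Type} [Group F] [IsFreeGroup F] [CommGroup T] [IsMulTorsionFree T]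
    (q : F →* T) (r : J → F) (hr : ∀ j, q (r j) = 1) (s : T → F) (hs : ∀ t, q (s t) = t)
    {p : ℕ} [Fact p.Prime] (h : Ind p r) : Ind p (conj q r hr s) := by
  classical
  intro c v hv
  have h1 := congrArg (DK (ZMod p) q) hv
  rw [map_finsuppSum, map_zsmul, ← Int.cast_smul_eq_zsmul (ZMod p), Int.cast_natCast,
    ZMod.natCast_self, zero_smul] at h1
  have h2 : ∀ x : J × T, DK (ZMod p) q (cl (conj q r hr s x)) =
      MonoidAlgebra.single x.2 (1 : ZMod p) • D (ZMod p) q (r x.1) := by
    intro x
    rw [DK_cl]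
    change D (ZMod p) q (s x.2 * r x.1 * (s x.2)⁻¹) = _
    rw [D_conj _ _ (hr _), hs]
  simp only [map_zsmul, h2] at h1
  let S : Finset J := c.support.image Prod.fst
  let a : J → MonoidAlgebra (ZMod p) T := fun j =>
    ∑ x ∈ c.support with x.1 = j, MonoidAlgebra.single x.2 ((c x : ℤ) : ZMod p)
  have h3 := indep (fun j => D (ZMod p) q (r j)) (by simpa only [aug_D] using h.lin) S a (by
    intro i
    have e := DFunLike.congr_fun h1 i
    rw [Finsupp.zero_apply] at e
    rw [← e, Finsupp.sum, Finsupp.finsetSum_apply]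
    rw [← Finset.sum_fiberwise_of_maps_to (s := c.support) (t := S) (g := Prod.fst)
      (fun x hx => Finset.mem_image_of_mem _ hx)]
    refine Finset.sum_congr rfl fun j _ => ?_
    rw [Finset.sum_mul]
    refine Finset.sum_congr rfl fun x hx => ?_
    rw [(Finset.mem_filter.1 hx).2, ← Int.cast_smul_eq_zsmul (ZMod p), Finsupp.smul_apply,
      Finsupp.smul_apply, smul_eq_mul, ← smul_mul_assoc]
    congr 1
    rw [MonoidAlgebra.smul_single, smul_eq_mul, mul_one])
  rintro ⟨j, t⟩
  by_cases hj : (j, t) ∈ c.support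
  · have h4 := h3 j (Finset.mem_image_of_mem _ hj)
    have h5 := congrArg (fun w => MonoidAlgebra.coeffAddEquiv w t) h4
    simp only [a, map_sum, Finsupp.finsetSum_apply, map_zero, Finsupp.zero_apply] at h5
    have h6 : ∀ (x : J × T) (b : ZMod p), MonoidAlgebra.coeffAddEquiv
        (MonoidAlgebra.single x.2 b) t = if x.2 = t then b else 0 := by
      intro x b
      change (MonoidAlgebra.single x.2 b).coeff t = _
      rw [MonoidAlgebra.coeff_single, Finsupp.single_apply]
    simp only [h6] at h5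
    rw [← ZMod.intCast_zmod_eq_zero_iff_dvd, ← h5, ← Finset.sum_filter, Finset.filter_filter]
    symm
    rw [Finset.sum_eq_single_of_mem (j, t) (Finset.mem_filter.2 ⟨hj, rfl, rfl⟩)]
    rintro ⟨j', t'⟩ hx hne
    obtain ⟨-, rfl, rfl⟩ := Finset.mem_filter.1 hx
    exact absurd rfl hne
  · rw [Finsupp.notMem_support_iff.1 hj]
    exact dvd_zero _

end Vale.Agent.P246.Dis.H965
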