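import Vale.Agent.P246.Dis.H965.Step

/-! # The tower argument -/

namespace Vale.Agent.P246.Dis.H965

open Subgroup

section Torsion

variable {F J : Type} [Group F] {r : J → F}

theorem cl_eq_zero {f : F} : cl f = 0 ↔ f ∈ commutator F := by
  rw [← Abelianization.ker_of, MonoidHom.mem_ker]
  rfl

/-- membership in `R [F, F]` -/
theorem mem_iff {f : F} : f ∈ normalClosure (Set.range r) ⊔ commutator F ↔
    cl f ∈ Submodule.span ℤ (Set.range fun j => cl (r j)) := by
  let S := Submodule.span ℤ (Set.range fun j => cl (r j))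
  constructor
  · intro h
    let N : Subgroup F :=
      { carrier := {f | cl f ∈ S}
        mul_mem' := fun {a b} ha hb => by
          change cl (a * b) ∈ S
          rw [cl_mul]; exact S.add_mem ha hb
        one_mem' := by
          change cl (1 : F) ∈ S
          rw [cl_one]; exact S.zero_mem
        inv_mem' := fun {a} ha => by
          change cl a⁻¹ ∈ S
          rw [cl_inv]; exact S.neg_mem ha }
    have hN : N.Normal := ⟨fun n hn g => by
      change cl (g * n * g⁻¹) ∈ S
      rw [cl_mul, cl_mul, cl_inv, add_right_comm, add_neg_cancel, zero_add]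
      exact hn⟩
    have h1 : normalClosure (Set.range r) ⊔ commutator F ≤ N := by
      refine sup_le (normalClosure_le_normal ?_) ?_
      · rintro _ ⟨j, rfl⟩
        exact Submodule.subset_span ⟨j, rfl⟩
      · intro g hg
        change cl g ∈ S
        rw [cl_eq_zero.2 hg]; exact S.zero_mem
    exact h1 h
  · intro h
    have h1 : ∀ v ∈ S, ∃ g ∈ normalClosure (Set.range r), cl g = v := by
      intro v hv
      induction hv using Submodule.span_induction with
      | mem x hx =>
        obtain ⟨j, rfl⟩ := hx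
        exact ⟨r j, subset_normalClosure ⟨j, rfl⟩, rfl⟩
      | zero => exact ⟨1, one_mem _, cl_one⟩
      | add x y _ _ hx hy =>
        obtain ⟨a, ha, rfl⟩ := hx
        obtain ⟨b, hb, rfl⟩ := hy
        exact ⟨a * b, mul_mem ha hb, cl_mul a b⟩
      | smul n x _ hx =>
        obtain ⟨a, ha, rfl⟩ := hx
        refine ⟨a ^ n, zpow_mem ha n, ?_⟩
        simp [cl]
    obtain ⟨g, hg, hgf⟩ := h1 _ h
    have h2 : g⁻¹ * f ∈ commutator F := by
      rw [← cl_eq_zero, cl_mul, cl_inv, hgf, neg_add_cancel]
    have := mul_mem (mem_sup_left (T := commutator F) hg)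
      (mem_sup_right (S := normalClosure (Set.range r)) h2)
    rwa [mul_inv_cancel_left] at this

theorem torsion_prime [IsFreeGroup F] {p : ℕ} (hp : p.Prime) (h : Ind p r) {f : F}
    (hf : f ^ p ∈ normalClosure (Set.range r) ⊔ commutator F) :
    f ∈ normalClosure (Set.range r) ⊔ commutator F := by
  rw [mem_iff] at hf ⊢
  rw [Finsupp.mem_span_range_iff_exists_finsupp] at hf
  obtain ⟨c, hc⟩ := hf
  rw [cl_pow, ← natCast_zsmul] at hc
  have h1 := h c _ hc
  let c' : J →₀ ℤ := c.mapRange (fun a => a / p) (by simp)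
  have h2 : c = (p : ℤ) • c' := by
    ext j
    rw [Finsupp.smul_apply, Finsupp.mapRange_apply, smul_eq_mul, Int.mul_ediv_cancel' (h1 j)]
  have h3 : (p : ℤ) • (cl f - c'.sum fun j m => m • cl (r j)) = 0 := by
    rw [smul_sub, ← hc, h2, Finsupp.sum_smul_index (by simp), Finsupp.smul_sum, sub_eq_zero]
    simp only [mul_smul]
  have h4 := sub_eq_zero.1 (tf (by exact_mod_cast hp.ne_zero) h3)
  rw [h4, Finsupp.mem_span_range_iff_exists_finsupp]
  exact ⟨c', rfl⟩

theorem torsion [IsFreeGroup F] (h : ∀ p : ℕ, p.Prime → Ind p r) {n : ℕ} (hn : 0 < n) {f : F}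
    (hf : f ^ n ∈ normalClosure (Set.range r) ⊔ commutator F) :
    f ∈ normalClosure (Set.range r) ⊔ commutator F := by
  induction n using Nat.strong_induction_on generalizing f with
  | _ n ih =>
    rcases Nat.lt_or_ge n 2 with h1 | h1
    · obtain rfl : n = 1 := by omega
      rwa [pow_one] at hf
    · have hp := Nat.minFac_prime (n := n) (by omega)
      obtain ⟨m, hm⟩ := Nat.minFac_dvd n
      have hm0 : 0 < m := Nat.pos_of_ne_zero (by rintro rfl; omega)
      refine ih m ?_ hm0 (torsion_prime hp (h _ hp) ?_)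
      · have := hp.two_le
        nlinarith
      · rw [← pow_mul, mul_comm, ← hm]
        exact hf

end Torsion

/-- the normal closure in the kernel of `q` -/
theorem conj_closure {F T J : Type} [Group F] [CommGroup T] (q : F →* T) (r : J → F)
    (hr : ∀ j, q (r j) = 1) (s : T → F) (hs : ∀ t, q (s t) = t) :
    normalClosure (Set.range r) ≤
      (normalClosure (Set.range (conj q r hr s))).map q.ker.subtype := by
  rw [normalClosure, closure_le]
  intro x hx
  obtain ⟨_, ⟨j, rfl⟩, hx⟩ := Group.mem_conjugatesOfSet_iff.1 hx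
  obtain ⟨f, rfl⟩ := isConj_iff.1 hx
  have hf : f * (s (q f))⁻¹ ∈ q.ker := by
    rw [MonoidHom.mem_ker, map_mul, map_inv, hs, mul_inv_cancel]
  refine ⟨(⟨f * (s (q f))⁻¹, hf⟩ : q.ker) * conj q r hr s (j, q f) *
    (⟨f * (s (q f))⁻¹, hf⟩ : q.ker)⁻¹, ?_, ?_⟩
  · exact normalClosure_normal.conj_mem _ (subset_normalClosure (Set.mem_range_self (j, q f))) _
  · change f * (s (q f))⁻¹ * (s (q f) * r j * (s (q f))⁻¹) * (f * (s (q f))⁻¹)⁻¹ = _
    group

/-- the torsion-free quotient -/
theorem quot_tf {F T J : Type} [Group F] [IsFreeGroup F] [CommGroup T] {r : J → F}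
    (h : ∀ p : ℕ, p.Prime → Ind p r) (q : F →* T) (hq : Function.Surjective q)
    (hk : q.ker = normalClosure (Set.range r) ⊔ commutator F) : IsMulTorsionFree T := by
  constructor
  intro n hn a b hab
  obtain ⟨f, hf⟩ := hq (a / b)
  have h1 : f ^ n ∈ q.ker := by
    rw [MonoidHom.mem_ker, map_pow, hf, div_pow, div_eq_one]
    exact hab
  rw [hk] at h1
  have h2 := torsion h (Nat.pos_of_ne_zero hn) h1
  rw [← hk, MonoidHom.mem_ker, hf, div_eq_one] at h2
  exact h2

end Vale.Agent.P246.Dis.H965
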